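import Vale.Agent.P216.H933.Qm
import Vale.Agent.P216.H525.Flat

/-!
# P216: closed geodesics, homogeneous quasimorphisms and flats
-/

open Set Topology Bundle Manifold
open scoped ContDiff

namespace Vale.Agent.P216.H933

open Vale.Agent.P216

variable (E : Type) [NormedAddCommGroup E] [NormedSpace ℝ E] [FiniteDimensional ℝ E]
    {M : Type} [MetricSpace M] [CompactSpace M] [ChartedSpace E M] [IsManifold 𝓘(ℝ, E) ∞ M]
    [RiemannianBundle (fun x : M => TangentSpace 𝓘(ℝ, E) x)]
    [IsContMDiffRiemannianBundle 𝓘(ℝ, E) ∞ E (fun x : M => TangentSpace 𝓘(ℝ, E) x)]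
    [IsRiemannianManifold 𝓘(ℝ, E) M]

include E in
/-- Only finitely many closed geodesics: every quotient of a subgroup of finite index of the
fundamental group is a finite union of conjugates of cyclic groups. -/
theorem fcc_quot (x₀ : M) (H : Subgroup (FundamentalGroup M x₀)) [H.FiniteIndex] {P : Type*}
    [Group P] (p : H →* P) (hp : Function.Surjective p)
    (hfin : (primeClosedGeodesicImages M).Finite) : FinitelyCyclicallyCovered P :=
  RFS.fcc_map ((finitelyCyclicallyCovered_fundamentalGroup E M x₀ hfin).subgroup H) p hp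

/-- Two linearly independent homogeneous quasimorphisms. -/
def TwoQm (P : Type) [Group P] : Prop :=
  ∃ (φ ψ : P → ℝ) (D : ℝ), (∀ x y, |φ (x * y) - φ x - φ y| ≤ D ∧ |ψ (x * y) - ψ x - ψ y| ≤ D) ∧
    (∀ x (n : ℤ), φ (x ^ n) = n * φ x ∧ ψ (x ^ n) = n * ψ x) ∧ LinearIndependent ℝ ![φ, ψ]

/-- An isometric action on a space with the quadrilateral inequality (every `CAT(0)` space has
it), and two commuting elements `g`, `k` such that `m, n ↦ g ^ m k ^ n x` does not distort
distances by more than a constant factor. -/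
def Flat (P : Type) [Group P] : Prop :=
  ∃ (X : Type) (_ : PseudoMetricSpace X) (_ : MulAction P X) (_ : IsIsometricSMul P X) (x : X)
    (g k : P) (ε K : ℝ), (∀ a b c d : X, dist a c ^ 2 + dist b d ^ 2 ≤
      dist a b ^ 2 + dist b c ^ 2 + dist c d ^ 2 + dist d a ^ 2) ∧ g * k = k * g ∧ 0 < ε ∧
    ∀ m n : ℤ, ε * (|(m : ℝ)| + |(n : ℝ)|) - K ≤ dist x ((g ^ m * k ^ n) • x)

theorem false_of_fcc {P : Type} [Group P] (hP : FinitelyCyclicallyCovered P)
    (h : TwoQm P ∨ Flat P) : False := by
  rcases h with ⟨φ, ψ, D, h1, h2, h3⟩ | ⟨X, i1, i2, i3, x, g, k, ε, K, hX, hc, hε, hlow⟩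
  · exact not_linearIndependent hP (fun x y => (h1 x y).1) (fun x n => (h2 x n).1)
      (fun x y => (h1 x y).2) (fun x n => (h2 x n).2) h3
  · exact H525.not_fcc_of_flat (P := P) (X := X) hX x hc hε hlow hP

include E in
theorem main (x₀ : M) (H : Subgroup (FundamentalGroup M x₀)) (hH : H.FiniteIndex) {P : Type}
    [Group P] (p : H →* P) (hp : Function.Surjective p) (h : TwoQm P ∨ Flat P) :
    (primeClosedGeodesicImages M).Infinite :=
  fun hfin => false_of_fcc (fcc_quot E x₀ H p hp hfin) h

end Vale.Agent.P216.H933
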