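import Vale.Agent.P216.R2.H189.Main3

/-!
# P216: homogeneous quasimorphisms and cyclically covered groups

A group which is a finite union of conjugates of cyclic groups has at most one homogeneous
quasimorphism, up to scalars.
-/

open Set

namespace Vale.Agent.P216.H933

variable {P : Type*} [Group P]

theorem eq_zero_of_inf {s : Set ℕ} (hs : s.Infinite) {x C : ℝ}
    (h : ∀ m ∈ s, (m : ℝ) * |x| ≤ C) : x = 0 := by
  by_contra hx
  have h0 : 0 < |x| := abs_pos.2 hx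
  obtain ⟨N, hN⟩ := exists_nat_gt (C / |x|)
  obtain ⟨m, hm, hNm⟩ := hs.exists_gt N
  have h1 := h m hm
  rw [div_lt_iff₀ h0] at hN
  have h2 : (N : ℝ) * |x| ≤ (m : ℝ) * |x| :=
    mul_le_mul_of_nonneg_right (by exact_mod_cast hNm.le) h0.le
  linarith

/-- A homogeneous quasimorphism is invariant under conjugation. -/
theorem conj_inv {φ : P → ℝ} {D : ℝ} (h : ∀ x y, |φ (x * y) - φ x - φ y| ≤ D)
    (hn : ∀ x (n : ℤ), φ (x ^ n) = n * φ x) (y g : P) : φ (y * g * y⁻¹) = φ g := by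
  have hinv : φ y⁻¹ = - φ y := by
    have := hn y (-1)
    simpa using this
  have key : φ (y * g * y⁻¹) - φ g = 0 := by
    refine eq_zero_of_inf Set.infinite_univ (C := 2 * D) fun m _ => ?_
    have e1 : φ (y * g ^ (m : ℤ) * y⁻¹) = m * φ (y * g * y⁻¹) := by
      rw [← conj_zpow, hn]
      push_cast
      rfl
    have e2 : φ (g ^ (m : ℤ)) = m * φ g := by
      rw [hn]
      push_cast
      rfl
    have h1 := h (y * g ^ (m : ℤ)) y⁻¹
    have h2 := h y (g ^ (m : ℤ))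
    rw [e1, hinv] at h1
    rw [e2] at h2
    rw [abs_le] at h1 h2
    have h3 : |(m : ℝ) * (φ (y * g * y⁻¹) - φ g)| ≤ 2 * D := by
      rw [abs_le]
      constructor <;> linarith [h1.1, h1.2, h2.1, h2.2]
    rwa [abs_mul, Nat.abs_cast] at h3
  linarith

theorem pow_bound {φ : P → ℝ} {D : ℝ} (h : ∀ x y, |φ (x * y) - φ x - φ y| ≤ D)
    (hn : ∀ x (n : ℤ), φ (x ^ n) = n * φ x) (g k : P) (q m : ℕ) :
    |φ (g ^ (m : ℤ) * k ^ ((q * m : ℕ) : ℤ)) - m * (φ g + q * φ k)| ≤ D := by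
  have := h (g ^ (m : ℤ)) (k ^ ((q * m : ℕ) : ℤ))
  rw [hn, hn] at this
  push_cast at this ⊢
  rw [show φ (g ^ (m : ℤ) * k ^ ((q : ℤ) * (m : ℤ))) - (m : ℝ) * (φ g + q * φ k) =
    φ (g ^ (m : ℤ) * k ^ ((q : ℤ) * (m : ℤ))) - (m : ℝ) * φ g - (q : ℝ) * m * φ k by ring]
  exact this

/-- **At most one homogeneous quasimorphism.** -/
theorem not_linearIndependent (hP : FinitelyCyclicallyCovered P) {φ ψ : P → ℝ} {D : ℝ}
    (h : ∀ x y, |φ (x * y) - φ x - φ y| ≤ D) (hn : ∀ x (n : ℤ), φ (x ^ n) = n * φ x)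
    (h' : ∀ x y, |ψ (x * y) - ψ x - ψ y| ≤ D) (hn' : ∀ x (n : ℤ), ψ (x ^ n) = n * ψ x) :
    ¬ LinearIndependent ℝ ![φ, ψ] := by
  intro hli
  rw [LinearIndependent.pair_iff] at hli
  obtain ⟨F, hF, hcov⟩ := hP
  haveI : Finite F := hF
  -- every element is a multiple of an element of `F`
  have hcov' : ∀ g : P, ∃ a : F, ∃ k : ℤ, φ g = k * φ a ∧ ψ g = k * ψ a := by
    intro g
    obtain ⟨a, ha, k, hk⟩ := hcov g
    rw [isConj_iff] at hk
    obtain ⟨c, hc⟩ := hk
    refine ⟨⟨a, ha⟩, k, ?_, ?_⟩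
    · rw [← conj_inv h hn c g, hc, hn]
    · rw [← conj_inv h' hn' c g, hc, hn']
  -- two elements with independent images
  obtain ⟨g, k, hgk⟩ : ∃ g k : P, φ g * ψ k - φ k * ψ g ≠ 0 := by
    by_contra hcon
    push Not at hcon
    have h0 : ∃ g, φ g ≠ 0 ∨ ψ g ≠ 0 := by
      by_contra h0
      push Not at h0
      have := hli 1 0 (by ext x; simp [(h0 x).1])
      simp at this
    obtain ⟨g0, hg0⟩ := h0
    have h1 := hli (ψ g0) (- φ g0) (by
      ext x
      have := hcon x g0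
      simp only [Pi.add_apply, Pi.smul_apply, smul_eq_mul, Pi.zero_apply]
      linarith)
    rcases hg0 with hg0 | hg0
    · exact hg0 (by linarith [h1.2])
    · exact hg0 h1.1
  -- for every slope `q` one element of `F` occurs infinitely often
  have hq : ∀ q : ℕ, ∃ a : F, ∃ s : Set ℕ, s.Infinite ∧ ∀ m ∈ s, ∃ j : ℤ,
      φ (g ^ (m : ℤ) * k ^ ((q * m : ℕ) : ℤ)) = j * φ a ∧
      ψ (g ^ (m : ℤ) * k ^ ((q * m : ℕ) : ℤ)) = j * ψ a := by
    intro q
    choose f j hj using fun m : ℕ => hcov' (g ^ (m : ℤ) * k ^ ((q * m : ℕ) : ℤ))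
    obtain ⟨a, ha⟩ := Finite.exists_infinite_fiber f
    refine ⟨a, f ⁻¹' {a}, Set.infinite_coe_iff.1 ha, fun m hm => ⟨j m, ?_⟩⟩
    have : f m = a := hm
    rw [← this]
    exact hj m
  choose a s hs hj using hq
  -- the line of slope `q` is the line of `a q`
  have hline : ∀ q : ℕ, (φ g + q * φ k) * ψ (a q) - (ψ g + q * ψ k) * φ (a q) = 0 := by
    intro q
    refine eq_zero_of_inf (hs q) (C := D * |ψ (a q)| + D * |φ (a q)|) fun m hm => ?_
    obtain ⟨j, hj1, hj2⟩ := hj q m hm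
    have b1 := pow_bound h hn g k q m
    have b2 := pow_bound h' hn' g k q m
    set x := φ (g ^ (m : ℤ) * k ^ ((q * m : ℕ) : ℤ))
    set y := ψ (g ^ (m : ℤ) * k ^ ((q * m : ℕ) : ℤ))
    have e : (m : ℝ) * ((φ g + q * φ k) * ψ (a q) - (ψ g + q * ψ k) * φ (a q)) =
        - ((x - m * (φ g + q * φ k)) * ψ (a q)) + (y - m * (ψ g + q * ψ k)) * φ (a q) := by
      have : x * ψ (a q) = y * φ (a q) := by rw [hj1, hj2]; ring
      linear_combination this
    rw [← Nat.abs_cast m, ← abs_mul, e]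
    refine (abs_add_le _ _).trans ?_
    rw [abs_neg, abs_mul, abs_mul]
    gcongr
  -- two slopes with the same element
  obtain ⟨q, q', hqq, haa⟩ : ∃ q q' : ℕ, q ≠ q' ∧ a q = a q' := by
    obtain ⟨q, q', h1, h2⟩ := Finite.exists_ne_map_eq_of_infinite a
    exact ⟨q, q', h1, h2⟩
  have l1 := hline q
  have l2 := hline q'
  rw [← haa] at l2
  have hd : ((q : ℝ) - q') ≠ 0 := by
    rw [sub_ne_zero]
    exact_mod_cast hqq
  have w0 : φ k * ψ (a q) - ψ k * φ (a q) = 0 := by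
    have : ((q : ℝ) - q') * (φ k * ψ (a q) - ψ k * φ (a q)) = 0 := by
      linear_combination l1 - l2
    exact (mul_eq_zero.1 this).resolve_left hd
  have v0 : φ g * ψ (a q) - ψ g * φ (a q) = 0 := by
    linear_combination l1 - q * w0
  have p0 : φ (a q) = 0 := by
    have : (φ g * ψ k - φ k * ψ g) * φ (a q) = 0 := by
      linear_combination φ k * v0 - φ g * w0
    exact (mul_eq_zero.1 this).resolve_left hgk
  have p1 : ψ (a q) = 0 := by
    have : (φ g * ψ k - φ k * ψ g) * ψ (a q) = 0 := by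
      linear_combination ψ k * v0 - ψ g * w0
    exact (mul_eq_zero.1 this).resolve_left hgk
  have z1 : φ g + q * φ k = 0 := by
    refine eq_zero_of_inf (hs q) (C := D) fun m hm => ?_
    obtain ⟨j, hj1, -⟩ := hj q m hm
    have b1 := pow_bound h hn g k q m
    rw [hj1, p0, mul_zero, zero_sub, abs_neg, abs_mul, Nat.abs_cast] at b1
    exact b1
  have z2 : ψ g + q * ψ k = 0 := by
    refine eq_zero_of_inf (hs q) (C := D) fun m hm => ?_
    obtain ⟨j, -, hj2⟩ := hj q m hm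
    have b1 := pow_bound h' hn' g k q m
    rw [hj2, p1, mul_zero, zero_sub, abs_neg, abs_mul, Nat.abs_cast] at b1
    exact b1
  apply hgk
  linear_combination ψ k * z1 - φ k * z2

end Vale.Agent.P216.H933
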